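import Vale.Agent.P335.H586.Bip

/-!
# P335: Poincare inequality for the row pairs of a split graph

In the split graph of an `a × b` zero-one matrix the averages over single pairs of rows already
control the variance, with constant one.
-/

namespace Vale.Agent.P335.H410

open Finset Vale.Agent.P335 Vale.Agent.P335.H586

section Blocks

variable {a b : ℕ} {r : Fin a → ℕ} {c : Fin b → ℕ}

/-- the first class is complete, the second one is empty -/
theorem blocks (hrc : ∑ i, r i = ∑ j, c j) (x : RA.St (sd r c)) :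
    (∀ i i' : Fin a, i ≠ i' → x.1 (vA i) (vA i') = 1) ∧
      ∀ j j' : Fin b, x.1 (vB j) (vB j') = 0 := by
  have hA : ∀ i : Fin a, ∑ i' : Fin a, x.1 (vA i) (vA i') + ∑ j : Fin b, x.1 (vA i) (vB j) =
      ((a : ℤ) - 1) + (r i : ℤ) := by
    intro i
    have h := x.2.2.2.2 (vA i)
    rw [Fin.sum_univ_add, sd_A] at h
    have ha : 1 ≤ a := by have := i.isLt; omega
    have e : (((a - 1 + r i : ℕ)) : ℤ) = ((a : ℤ) - 1) + (r i : ℤ) := by
      push_cast [Nat.cast_sub ha]; ring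
    rw [e] at h
    exact h
  have hB : ∀ j : Fin b, ∑ i : Fin a, x.1 (vA i) (vB j) + ∑ j' : Fin b, x.1 (vB j) (vB j') =
      (c j : ℤ) := by
    intro j
    have h := x.2.2.2.2 (vB j)
    rw [Fin.sum_univ_add, sd_B] at h
    rw [← h]
    congr 1
    exact Finset.sum_congr rfl fun i _ => x.2.2.1 _ _
  have hAA : ∑ i : Fin a, ∑ i' : Fin a, x.1 (vA i) (vA i') +
      ∑ i : Fin a, ∑ j : Fin b, x.1 (vA i) (vB j) =
      ∑ i : Fin a, ∑ i' : Fin a, (if i ≠ i' then (1 : ℤ) else 0) + ∑ i, (r i : ℤ) := by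
    rw [← Finset.sum_add_distrib, ← Finset.sum_add_distrib]
    refine Finset.sum_congr rfl fun i _ => ?_
    rw [hA i]
    congr 1
    have h := sum_ne i
    have ha : 1 ≤ a := by have := i.isLt; omega
    have h' : ((∑ i' : Fin a, (if i ≠ i' then 1 else 0) : ℕ) : ℤ) = ((a - 1 : ℕ) : ℤ) := by
      rw [h]
    rw [Nat.cast_sub ha] at h'
    push_cast at h'
    rw [← h']
  have hBB : ∑ i : Fin a, ∑ j : Fin b, x.1 (vA i) (vB j) +
      ∑ j : Fin b, ∑ j' : Fin b, x.1 (vB j) (vB j') = ∑ j, (c j : ℤ) := by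
    rw [Finset.sum_comm, ← Finset.sum_add_distrib]
    exact Finset.sum_congr rfl fun j _ => hB j
  have hrc' : ∑ i, (r i : ℤ) = ∑ j, (c j : ℤ) := by exact_mod_cast hrc
  have h1 : ∀ i i' : Fin a, 0 ≤ (if i ≠ i' then (1 : ℤ) else 0) - x.1 (vA i) (vA i') := by
    intro i i'
    by_cases h : i = i'
    · subst h
      rw [x.2.2.2.1]; simp
    · rw [if_pos h]
      rcases x.2.1 (vA i) (vA i') with h | h <;> rw [h] <;> norm_num
  have h2 : ∀ j j' : Fin b, 0 ≤ x.1 (vB j) (vB j') := by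
    intro j j'
    rcases x.2.1 (vB j) (vB j') with h | h <;> rw [h]; norm_num
  have h3 : 0 ≤ ∑ i : Fin a, ∑ i' : Fin a, ((if i ≠ i' then (1 : ℤ) else 0) -
      x.1 (vA i) (vA i')) :=
    Finset.sum_nonneg fun i _ => Finset.sum_nonneg fun i' _ => h1 i i'
  have h4 : 0 ≤ ∑ j : Fin b, ∑ j' : Fin b, x.1 (vB j) (vB j') :=
    Finset.sum_nonneg fun j _ => Finset.sum_nonneg fun j' _ => h2 j j'
  have h5 : ∑ i : Fin a, ∑ i' : Fin a, ((if i ≠ i' then (1 : ℤ) else 0) - x.1 (vA i) (vA i')) =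
      ∑ i : Fin a, ∑ i' : Fin a, (if i ≠ i' then (1 : ℤ) else 0) -
        ∑ i : Fin a, ∑ i' : Fin a, x.1 (vA i) (vA i') := by
    simp only [Finset.sum_sub_distrib]
  have h6 : ∑ i : Fin a, ∑ i' : Fin a, ((if i ≠ i' then (1 : ℤ) else 0) -
      x.1 (vA i) (vA i')) = 0 := by
    rw [h5] at h3 ⊢
    linarith
  have h7 : ∑ j : Fin b, ∑ j' : Fin b, x.1 (vB j) (vB j') = 0 := by
    rw [h5] at h3
    linarith
  constructor
  · intro i i' hne
    rw [Finset.sum_eq_zero_iff_of_nonneg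
      (fun i _ => Finset.sum_nonneg fun i' _ => h1 i i')] at h6
    have h8 := h6 i (Finset.mem_univ i)
    rw [Finset.sum_eq_zero_iff_of_nonneg (fun i' _ => h1 i i')] at h8
    have h9 := h8 i' (Finset.mem_univ i')
    rw [if_pos hne] at h9
    linarith
  · intro j j'
    rw [Finset.sum_eq_zero_iff_of_nonneg
      (fun j _ => Finset.sum_nonneg fun j' _ => h2 j j')] at h7
    have h8 := h7 j (Finset.mem_univ j)
    rw [Finset.sum_eq_zero_iff_of_nonneg (fun j' _ => h2 j j')] at h8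
    exact h8 j' (Finset.mem_univ j')

/-- the zone of a pair of rows -/
def Zn (i i' : Fin a) (p q : Fin (a + b)) : Prop :=
  ((p = vA i ∨ p = vA i') ∧ ∃ j : Fin b, q = vB j) ∨
    ((q = vA i ∨ q = vA i') ∧ ∃ j : Fin b, p = vB j)

theorem pairRel_eq (hrc : ∑ i, r i = ∑ j, c j) (i i' : Fin a) :
    (RA.pairRel (vA i) (vA i') : Setoid (RA.St (sd r c))) = RA.offRel (Zn i i') := by
  apply Setoid.ext
  intro x y
  constructor
  · intro h p q hpq
    by_cases hs : RA.starPair (vA i) (vA i') p q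
    · -- both entries are one
      have key : ∀ (p q : Fin (a + b)), (p = vA i ∨ p = vA i') → ¬ (q = vA i ∨ q = vA i') →
          (¬ ∃ j : Fin b, q = vB j) → x.1 p q = y.1 p q := by
        intro p q hp hq hB
        rcases vtx q with ⟨k, rfl⟩ | ⟨j, rfl⟩
        · have hk : i ≠ k ∧ i' ≠ k := by
            constructor
            · rintro rfl; exact hq (Or.inl rfl)
            · rintro rfl; exact hq (Or.inr rfl)
          rcases hp with rfl | rfl
          · rw [(blocks hrc x).1 i k hk.1, (blocks hrc y).1 i k hk.1]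
          · rw [(blocks hrc x).1 i' k hk.2, (blocks hrc y).1 i' k hk.2]
        · exact absurd ⟨j, rfl⟩ hB
      rcases hs with ⟨hp, hq⟩ | ⟨hq, hp⟩
      · exact key p q hp hq (fun hB => hpq (Or.inl ⟨hp, hB⟩))
      · rw [x.2.2.1 p q, y.2.2.1 p q]
        exact key q p hq hp (fun hB => hpq (Or.inr ⟨hq, hB⟩))
    · exact h p q hs
  · intro h p q hpq
    apply h
    intro hz
    apply hpq
    rcases hz with ⟨hp, j, rfl⟩ | ⟨hq, j, rfl⟩
    · refine Or.inl ⟨hp, ?_⟩
      rintro (h1 | h1)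
      · exact vAB h1.symm
      · exact vAB h1.symm
    · refine Or.inr ⟨hq, ?_⟩
      rintro (h1 | h1)
      · exact vAB h1.symm
      · exact vAB h1.symm

/-- disjoint pairs of rows -/
theorem four_nonneg (hrc : ∑ i, r i = ∑ j, c j) {i i' k l : Fin a} (h4 : RA.Four i i' k l)
    (f : RA.St (sd r c) → ℝ) :
    0 ≤ RA.ip (RA.Dev (vA i) (vA i') f) (RA.Dev (vA k) (vA l) f) := by
  unfold RA.Dev
  apply RA.ip_cdev_cdev_nonneg_of_comm
  apply RA.cavg_comm
  intro x
  rw [pairRel_eq hrc, pairRel_eq hrc]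
  apply RA.rect_of_disjoint
  rintro p q ⟨h1, h2⟩
  have hBA : ∀ (j : Fin b) (m : Fin a), (vB j : Fin (a + b)) ≠ vA m := fun j m h => vAB h.symm
  rcases h1 with ⟨h1, j, hj⟩ | ⟨h1, j, hj⟩ <;> rcases h2 with ⟨h2, j', hj'⟩ | ⟨h2, j', hj'⟩
  · rcases h1 with rfl | rfl <;> rcases h2 with h2 | h2 <;> rw [vA_inj] at h2
    · exact h4.ab h2
    · exact h4.ae h2
    · exact h4.cb h2
    · exact h4.ce h2
  · subst hj
    rcases h2 with h2 | h2
    · exact hBA _ _ h2
    · exact hBA _ _ h2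
  · subst hj
    rcases h2 with h2 | h2
    · exact hBA _ _ h2
    · exact hBA _ _ h2
  · rcases h1 with rfl | rfl <;> rcases h2 with h2 | h2 <;> rw [vA_inj] at h2
    · exact h4.ab h2
    · exact h4.ae h2
    · exact h4.cb h2
    · exact h4.ce h2

end Blocks

section Abs

set_option linter.unusedSectionVars false

variable {V : Type*} [Fintype V] [DecidableEq V] {d : V → ℕ}
variable {I : Type*} [Fintype I] [DecidableEq I]

open Classical in
theorem tri_sum (D : I → I → RA.St d → ℝ)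
    (htri : ∀ i j k : I, i ≠ j → j ≠ k → i ≠ k →
      0 ≤ RA.ip (D i j) (D i k) + RA.ip (D j i) (D j k) + RA.ip (D k i) (D k j)) :
    0 ≤ ∑ a : I, ∑ b : I, ∑ c : I, (if a ≠ b ∧ b ≠ c ∧ a ≠ c then
      RA.ip (D a b) (D a c) else 0) := by
  set F : I → I → I → ℝ := fun a b c => if a ≠ b ∧ b ≠ c ∧ a ≠ c then
      RA.ip (D a b) (D a c) else 0 with hF
  have h1 : ∀ a b c, 0 ≤ F a b c + F b a c + F c a b := by
    intro a b c
    rw [hF]
    by_cases h : a ≠ b ∧ b ≠ c ∧ a ≠ c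
    · have e2 : b ≠ a ∧ a ≠ c ∧ b ≠ c := ⟨h.1.symm, h.2.2, h.2.1⟩
      have e3 : c ≠ a ∧ a ≠ b ∧ c ≠ b := ⟨h.2.2.symm, h.1, h.2.1.symm⟩
      simp only [if_pos h, if_pos e2, if_pos e3]
      exact htri a b c h.1 h.2.1 h.2.2
    · have e2 : ¬ (b ≠ a ∧ a ≠ c ∧ b ≠ c) := fun h' => h ⟨h'.1.symm, h'.2.2, h'.2.1⟩
      have e3 : ¬ (c ≠ a ∧ a ≠ b ∧ c ≠ b) := fun h' => h ⟨h'.2.1, h'.2.2.symm, h'.1.symm⟩
      simp only [if_neg h, if_neg e2, if_neg e3]
      norm_num
  have h2 : 0 ≤ ∑ a, ∑ b, ∑ c, (F a b c + F b a c + F c a b) :=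
    Finset.sum_nonneg fun a _ => Finset.sum_nonneg fun b _ => Finset.sum_nonneg fun c _ => h1 a b c
  simp only [Finset.sum_add_distrib] at h2
  have h3 : ∑ a, ∑ b, ∑ c, F b a c = ∑ a, ∑ b, ∑ c, F a b c := Finset.sum_comm
  have h4 : ∑ a, ∑ b, ∑ c, F c a b = ∑ a, ∑ b, ∑ c, F a b c := by
    have : ∑ a, ∑ b, ∑ c, F c a b = ∑ a, ∑ c, ∑ b, F c a b :=
      Finset.sum_congr rfl fun a _ => Finset.sum_comm
    rw [this, Finset.sum_comm]
  rw [h3, h4] at h2
  linarith only [h2]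

open Classical in
theorem sq_ge (D : I → I → RA.St d → ℝ) (hs : ∀ i j, D i j = D j i)
    (htri : ∀ i j k : I, i ≠ j → j ≠ k → i ≠ k →
      0 ≤ RA.ip (D i j) (D i k) + RA.ip (D j i) (D j k) + RA.ip (D k i) (D k j))
    (hfour : ∀ i j k l : I, RA.Four i j k l → 0 ≤ RA.ip (D i j) (D k l)) :
    2 * ∑ a : I, ∑ c : I, (if a ≠ c then RA.ip (D a c) (D a c) else 0) ≤
      RA.ip (∑ a : I, ∑ c : I, (if a ≠ c then D a c else 0))
        (∑ a : I, ∑ c : I, (if a ≠ c then D a c else 0)) := by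
  have hl : ∀ g : RA.St d → ℝ, RA.ip (∑ a : I, ∑ c : I, (if a ≠ c then D a c else 0)) g =
      ∑ a : I, ∑ c : I, (if a ≠ c then RA.ip (D a c) g else 0) := by
    intro g
    rw [RA.ip_sum_left]
    refine Finset.sum_congr rfl fun a _ => ?_
    rw [RA.ip_sum_left]
    exact Finset.sum_congr rfl fun c _ => RA.ip_ite_left _ _ _
  have e1 : RA.ip (∑ a : I, ∑ c : I, (if a ≠ c then D a c else 0))
        (∑ a : I, ∑ c : I, (if a ≠ c then D a c else 0)) =
      ∑ a : I, ∑ c : I, (if a ≠ c then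
      ∑ b : I, ∑ e : I, (if b ≠ e then RA.ip (D a c) (D b e) else 0) else 0) := by
    rw [hl]
    refine Finset.sum_congr rfl fun a _ => Finset.sum_congr rfl fun c _ => ?_
    split_ifs with h
    · rw [RA.ip_comm, hl]
      refine Finset.sum_congr rfl fun b _ => Finset.sum_congr rfl fun e _ => ?_
      split_ifs
      · rw [RA.ip_comm]
      · rfl
    · rfl
  have e2 : ∀ a c : I, (if a ≠ c then
      ∑ b : I, ∑ e : I, (if b ≠ e then RA.ip (D a c) (D b e) else 0) else 0) =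
      ∑ b, ∑ e, (if RA.Four a c b e then RA.ip (D a c) (D b e) else 0) +
      2 * ∑ x, (if a ≠ c ∧ c ≠ x ∧ a ≠ x then RA.ip (D a c) (D a x) else 0) +
      2 * ∑ x, (if c ≠ a ∧ a ≠ x ∧ c ≠ x then RA.ip (D c a) (D c x) else 0) +
      2 * (if a ≠ c then RA.ip (D a c) (D a c) else 0) := by
    intro a c
    by_cases hac : a = c
    · subst hac
      have h4 : ∀ b e : I, ¬ RA.Four a a b e := fun b e h => h.ac rfl
      simp only [ne_eq, not_true_eq_false, ↓reduceIte, h4, sum_const_zero, and_self, false_and,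
        mul_zero, add_zero]
    · rw [if_pos hac, RA.sum_pairs hac (fun b e => RA.ip (D a c) (D b e)), if_pos hac]
      have s1 : ∑ e, (if e ≠ a ∧ e ≠ c then RA.ip (D a c) (D a e) else 0) =
          ∑ x, (if a ≠ c ∧ c ≠ x ∧ a ≠ x then RA.ip (D a c) (D a x) else 0) := by
        refine Finset.sum_congr rfl fun x _ => ?_
        refine if_congr ?_ rfl rfl
        constructor
        · exact fun h => ⟨hac, h.2.symm, h.1.symm⟩
        · exact fun h => ⟨h.2.2.symm, h.2.1.symm⟩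
      have s2 : ∑ e, (if e ≠ a ∧ e ≠ c then RA.ip (D a c) (D c e) else 0) =
          ∑ x, (if c ≠ a ∧ a ≠ x ∧ c ≠ x then RA.ip (D c a) (D c x) else 0) := by
        refine Finset.sum_congr rfl fun x _ => ?_
        rw [hs a c]
        refine if_congr ?_ rfl rfl
        constructor
        · exact fun h => ⟨Ne.symm hac, h.1.symm, h.2.symm⟩
        · exact fun h => ⟨h.2.1.symm, h.2.2.symm⟩
      have s3 : ∑ b, (if b ≠ a ∧ b ≠ c then RA.ip (D a c) (D b a) else 0) =
          ∑ e, (if e ≠ a ∧ e ≠ c then RA.ip (D a c) (D a e) else 0) := by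
        refine Finset.sum_congr rfl fun x _ => ?_
        rw [hs x a]
      have s4 : ∑ b, (if b ≠ a ∧ b ≠ c then RA.ip (D a c) (D b c) else 0) =
          ∑ e, (if e ≠ a ∧ e ≠ c then RA.ip (D a c) (D c e) else 0) := by
        refine Finset.sum_congr rfl fun x _ => ?_
        rw [hs x c]
      rw [s3, s4, s1, s2, hs c a]
      ring
  have e3 : RA.ip (∑ a : I, ∑ c : I, (if a ≠ c then D a c else 0))
        (∑ a : I, ∑ c : I, (if a ≠ c then D a c else 0)) =
      ∑ a : I, ∑ c : I, ∑ b, ∑ e, (if RA.Four a c b e then RA.ip (D a c) (D b e) else 0) +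
      2 * ∑ a : I, ∑ c : I, ∑ x, (if a ≠ c ∧ c ≠ x ∧ a ≠ x then
        RA.ip (D a c) (D a x) else 0) +
      2 * ∑ a : I, ∑ c : I, ∑ x, (if c ≠ a ∧ a ≠ x ∧ c ≠ x then
        RA.ip (D c a) (D c x) else 0) +
      2 * ∑ a : I, ∑ c : I, (if a ≠ c then RA.ip (D a c) (D a c) else 0) := by
    rw [e1]
    simp_rw [e2]
    simp only [Finset.sum_add_distrib, ← Finset.mul_sum]
  have e4 : ∑ a : I, ∑ c : I, ∑ x, (if c ≠ a ∧ a ≠ x ∧ c ≠ x then
        RA.ip (D c a) (D c x) else 0) =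
      ∑ a : I, ∑ c : I, ∑ x, (if a ≠ c ∧ c ≠ x ∧ a ≠ x then
        RA.ip (D a c) (D a x) else 0) := Finset.sum_comm
  have h1 := tri_sum D htri
  have h2 : 0 ≤ ∑ a : I, ∑ c : I, ∑ b, ∑ e,
      (if RA.Four a c b e then RA.ip (D a c) (D b e) else 0) := by
    refine Finset.sum_nonneg fun a _ => Finset.sum_nonneg fun c _ => Finset.sum_nonneg fun b _ =>
      Finset.sum_nonneg fun e _ => ?_
    split_ifs with h
    · exact hfour a c b e h
    · exact le_rfl
  rw [e3, e4]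
  linarith only [h1, h2]

end Abs

section Row

variable {a b : ℕ} {r : Fin a → ℕ} {c : Fin b → ℕ}

/-- the sum of the deviations of all ordered pairs of rows, as a linear map -/
noncomputable def Tr (r : Fin a → ℕ) (c : Fin b → ℕ) :
    (RA.St (sd r c) → ℝ) →ₗ[ℝ] (RA.St (sd r c) → ℝ) :=
  ∑ i : Fin a, ∑ i' : Fin a, (if i ≠ i' then RA.cdevL (RA.pairRel (vA i) (vA i')) else 0)

theorem Tr_apply (f : RA.St (sd r c) → ℝ) : Tr r c f =
    ∑ i : Fin a, ∑ i' : Fin a, (if i ≠ i' then RA.Dev (vA i) (vA i') f else 0) := by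
  unfold Tr
  rw [LinearMap.sum_apply]
  refine Finset.sum_congr rfl fun i _ => ?_
  rw [LinearMap.sum_apply]
  refine Finset.sum_congr rfl fun i' _ => ?_
  split_ifs <;> simp [RA.Dev]

theorem ip_Tr (f g : RA.St (sd r c) → ℝ) : RA.ip (Tr r c f) g =
    ∑ i : Fin a, ∑ i' : Fin a, (if i ≠ i' then RA.ip (RA.Dev (vA i) (vA i') f) g else 0) := by
  rw [Tr_apply, RA.ip_sum_left]
  refine Finset.sum_congr rfl fun i _ => ?_
  rw [RA.ip_sum_left]
  exact Finset.sum_congr rfl fun i' _ => RA.ip_ite_left _ _ _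

theorem Tr_symm (f g : RA.St (sd r c) → ℝ) :
    RA.ip (Tr r c f) g = RA.ip f (Tr r c g) := by
  rw [ip_Tr, RA.ip_comm f, ip_Tr]
  refine Finset.sum_congr rfl fun i _ => Finset.sum_congr rfl fun i' _ => ?_
  split_ifs
  · unfold RA.Dev; rw [RA.ip_cdev, RA.ip_comm]
  · rfl

theorem ip_Tr_self (f : RA.St (sd r c) → ℝ) : RA.ip f (Tr r c f) =
    ∑ i : Fin a, ∑ i' : Fin a, (if i ≠ i' then
      RA.ip (RA.Dev (vA i) (vA i') f) (RA.Dev (vA i) (vA i') f) else 0) := by
  rw [RA.ip_comm, ip_Tr]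
  refine Finset.sum_congr rfl fun i _ => Finset.sum_congr rfl fun i' _ => ?_
  split_ifs
  · unfold RA.Dev; rw [RA.ip_comm, RA.ip_cdev_self]
  · rfl

theorem ip_Tr_self' (f : RA.St (sd r c) → ℝ) : RA.ip f (Tr r c f) =
    ∑ i : Fin a, ∑ i' : Fin a, (if i ≠ i' then RA.ip f (RA.Dev (vA i) (vA i') f) else 0) := by
  rw [RA.ip_comm, ip_Tr]
  refine Finset.sum_congr rfl fun i _ => Finset.sum_congr rfl fun i' _ => ?_
  split_ifs
  · rw [RA.ip_comm]
  · rfl

/-- a switch lies in the class of the pair `a, e` -/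
theorem pair_of_tuple {V : Type*} [Fintype V] [DecidableEq V] {d : V → ℕ} (x y : RA.St d)
    {a b c e : V} (hab : a ≠ b) (hac : a ≠ c) (hbe : b ≠ e) (hce : c ≠ e)
    (hy : RA.eset y = (RA.eset x \ {s(a, b), s(c, e)}) ∪ {s(a, c), s(b, e)}) :
    (RA.pairRel a e : Setoid (RA.St d)) x y := by
  intro i j hij
  have hmem : s(i, j) ∈ RA.eset x ↔ s(i, j) ∈ RA.eset y := by
    rw [hy]
    have hne : s(i, j) ≠ s(a, b) ∧ s(i, j) ≠ s(c, e) ∧ s(i, j) ≠ s(a, c) ∧
        s(i, j) ≠ s(b, e) := by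
      refine ⟨?_, ?_, ?_, ?_⟩ <;> intro h <;> apply hij <;> unfold RA.starPair <;>
        rw [Sym2.eq_iff] at h <;> rcases h with ⟨rfl, rfl⟩ | ⟨rfl, rfl⟩
      · left; exact ⟨Or.inl rfl, fun h => h.elim (fun h => hab h.symm) hbe⟩
      · right; exact ⟨Or.inl rfl, fun h => h.elim (fun h => hab h.symm) hbe⟩
      · right; exact ⟨Or.inr rfl, fun h => h.elim (fun h => hac h.symm) hce⟩
      · left; exact ⟨Or.inr rfl, fun h => h.elim (fun h => hac h.symm) hce⟩
      · left; exact ⟨Or.inl rfl, fun h => h.elim (fun h => hac h.symm) hce⟩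
      · right; exact ⟨Or.inl rfl, fun h => h.elim (fun h => hac h.symm) hce⟩
      · right; exact ⟨Or.inr rfl, fun h => h.elim (fun h => hab h.symm) hbe⟩
      · left; exact ⟨Or.inr rfl, fun h => h.elim (fun h => hab h.symm) hbe⟩
    simp only [mem_union, mem_sdiff, mem_insert, mem_singleton, not_or]
    (clear * - hne; tauto)
  rw [RA.mem_eset, RA.mem_eset] at hmem
  rcases x.2.1 i j with hx | hx <;> rcases y.2.1 i j with hy' | hy'
  · rw [hx, hy']
  · exact absurd (hmem.mpr hy') (by rw [hx]; norm_num)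
  · exact absurd (hmem.mp hx) (by rw [hy']; norm_num)
  · rw [hx, hy']

/-- a switch of a split graph lies in the class of a pair of rows -/
theorem row_of_Sw (hrc : ∑ i, r i = ∑ j, c j) (x y : RA.St (sd r c))
    (h : Sw (RA.eset x) (RA.eset y)) :
    ∃ i i' : Fin a, i ≠ i' ∧ (RA.pairRel (vA i) (vA i') : Setoid (RA.St (sd r c))) x y := by
  obtain ⟨p, q, s, t, hpq, hps, hpt, hqs, hqt, hst, h1, h2, h3, h4, hy⟩ := h
  rw [RA.mem_eset] at h1 h2 h3 h4
  obtain ⟨bA, bB⟩ := blocks hrc x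
  rcases vtx p with ⟨i, rfl⟩ | ⟨j, rfl⟩
  · -- `s ∈ B`, `t ∈ A`
    rcases vtx s with ⟨k, rfl⟩ | ⟨j, rfl⟩
    · exfalso
      exact h3 (bA i k (fun h => hps (by rw [h])))
    · rcases vtx t with ⟨i', rfl⟩ | ⟨j', rfl⟩
      · refine ⟨i, i', fun h => hpt (by rw [h]), ?_⟩
        exact pair_of_tuple x y hpq hps hqt hst hy
      · exfalso
        rw [bB j j'] at h2
        exact absurd h2 (by norm_num)
  · -- `q ∈ A`, `t ∈ B`, `s ∈ A`
    rcases vtx q with ⟨i, rfl⟩ | ⟨j', rfl⟩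
    · rcases vtx t with ⟨k, rfl⟩ | ⟨j', rfl⟩
      · exfalso
        exact h4 (bA i k (fun h => hqt (by rw [h])))
      · rcases vtx s with ⟨i', rfl⟩ | ⟨l, rfl⟩
        · refine ⟨i, i', fun h => hqs (by rw [h]), ?_⟩
          refine pair_of_tuple x y (a := vA i) (b := vB j) (c := vB j') (e := vA i') hpq.symm hqt
            hps hst.symm ?_
          rw [hy, Sym2.eq_swap (a := vB j) (b := vA i), Sym2.eq_swap (a := vA i') (b := vB j'),
            Finset.pair_comm (s(vB j, vA i')) _]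
        · exfalso
          rw [bB l j'] at h2
          exact absurd h2 (by norm_num)
    · exfalso
      rw [bB j j'] at h1
      exact absurd h1 (by norm_num)

/-- the kernel -/
theorem Tr_ker (hrc : ∑ i, r i = ∑ j, c j) (f : RA.St (sd r c) → ℝ) (h : Tr r c f = 0) :
    ∀ x y, f x = f y := by
  have h1 := ip_Tr_self f
  rw [h] at h1
  have h0 : RA.ip f (0 : RA.St (sd r c) → ℝ) = 0 := by
    unfold RA.ip; simp only [Pi.zero_apply, mul_zero, sum_const_zero]
  rw [h0] at h1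
  have h1' := h1.symm
  have hnn : ∀ i i' : Fin a, 0 ≤ (if i ≠ i' then
      RA.ip (RA.Dev (vA i) (vA i') f) (RA.Dev (vA i) (vA i') f) else 0) := by
    intro i i'
    split_ifs
    · exact RA.ip_self_nonneg _
    · exact le_rfl
  rw [Finset.sum_eq_zero_iff_of_nonneg
    (fun i _ => Finset.sum_nonneg fun i' _ => hnn i i')] at h1'
  have hD : ∀ i i' : Fin a, i ≠ i' → RA.Dev (vA i) (vA i') f = 0 := by
    intro i i' hne
    have h2 := h1' i (mem_univ i)
    rw [Finset.sum_eq_zero_iff_of_nonneg (fun i' _ => hnn i i')] at h2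
    have h3 := h2 i' (mem_univ i')
    rw [if_pos hne] at h3
    rw [RA.ip_self_eq_sum_sq, Finset.sum_eq_zero_iff_of_nonneg (fun _ _ => sq_nonneg _)] at h3
    funext x
    exact pow_eq_zero_iff (two_ne_zero) |>.mp (h3 x (mem_univ x))
  apply RA.const_of_Sw f
  intro x y hxy
  obtain ⟨i, i', hne, hr⟩ := row_of_Sw hrc x y hxy
  have h5 := hD i i' hne
  have h6 : ∀ z, f z = RA.cavg (RA.pairRel (vA i) (vA i')) f z := by
    intro z
    have := congrFun h5 z
    simp only [RA.Dev, RA.cdev, Pi.sub_apply, Pi.zero_apply] at this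
    linarith only [this]
  rw [h6 x, h6 y]
  exact RA.cavg_congr hr f

/-- **Poincare inequality for pairs of rows.** -/
theorem row_gap (r : Fin a → ℕ) (c : Fin b → ℕ) (hrc : ∑ i, r i = ∑ j, c j)
    (f : RA.St (sd r c) → ℝ) :
    ∑ x, (f x - (∑ y, f y) / (Fintype.card (RA.St (sd r c)) : ℝ)) ^ 2 ≤
      (1 / 2) * ∑ i : Fin a, ∑ i' : Fin a, (if i ≠ i' then
        RA.ip f (RA.Dev (vA i) (vA i') f) else 0) := by
  have h1 := spectral_gap (Tr r c) (fun f g => Tr_symm f g) (fun f => by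
      change 0 ≤ RA.ip f (Tr r c f)
      rw [ip_Tr_self]
      refine Finset.sum_nonneg fun i _ => Finset.sum_nonneg fun i' _ => ?_
      split_ifs
      · exact RA.ip_self_nonneg _
      · exact le_rfl) (fun f => by
      change 2 * RA.ip f (Tr r c f) ≤ _
      rw [ip_Tr_self, ← RA.ip_self_eq_sum_sq, Tr_apply]
      refine sq_ge (fun i i' : Fin a => RA.Dev (vA i) (vA i') f) (fun i j => RA.Dev_comm _ _ _)
        ?_ ?_
      · intro i j k hij hjk hik
        have hij' : (vA i : Fin (a + b)) ≠ vA j := fun h => hij (vA_inj.1 h)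
        have hjk' : (vA j : Fin (a + b)) ≠ vA k := fun h => hjk (vA_inj.1 h)
        have hik' : (vA i : Fin (a + b)) ≠ vA k := fun h => hik (vA_inj.1 h)
        have h := RA.triple_nonneg (d := sd r c) hij' hik' hjk' f
        rw [RA.Dev_comm (vA j) (vA i), RA.Dev_comm (vA k) (vA i), RA.Dev_comm (vA k) (vA j)]
        exact h
      · intro i j k l h4
        exact four_nonneg hrc h4 f) (Tr_ker hrc) f
  change _ ≤ RA.ip f (Tr r c f) at h1
  rw [ip_Tr_self'] at h1
  linarith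

end Row

end Vale.Agent.P335.H410

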